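import Vale.Agent.P235.XC.Defs

/-!
P235, line XC (helper237): [MONO] `TX r` is a minor of `TX s` for `r ≤ s`.
-/

set_option autoImplicit false

namespace Vale.Agent.P235.XC.H237

open SimpleGraph Vale.Agent.P235.H134 Vale.Agent.P235.XC

theorem grid_adj {s : ℕ} (x y : Fin s × Fin s) : (grid s).Adj x y ↔
    (x.2 = y.2 ∧ (x.1.val + 1 = y.1.val ∨ y.1.val + 1 = x.1.val)) ∨
    (x.1 = y.1 ∧ (x.2.val + 1 = y.2.val ∨ y.2.val + 1 = x.2.val)) := by
  unfold grid
  rw [boxProd_adj, pathGraph_adj, pathGraph_adj]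
  tauto

theorem tx_g {s : ℕ} {x y : Fin s × Fin s} (h : (grid s).Adj x y) :
    (TX s).Adj (Sum.inr x) (Sum.inr y) :=
  ⟨fun e => h.ne (Sum.inr.inj e), Or.inl (Or.inr (Or.inr ⟨x, y, h, rfl, rfl⟩))⟩

theorem tx_0 {s : ℕ} {x : Fin s × Fin s} (h : x.1.val = 0 ∨ x.1.val + 1 = s) :
    (TX s).Adj (Sum.inl 0) (Sum.inr x) :=
  ⟨Sum.inl_ne_inr, Or.inl (Or.inl ⟨x, h, rfl, rfl⟩)⟩

theorem tx_1 {s : ℕ} {x : Fin s × Fin s} (h : x.2.val = 0 ∨ x.2.val + 1 = s) :
    (TX s).Adj (Sum.inl 1) (Sum.inr x) :=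
  ⟨Sum.inl_ne_inr, Or.inl (Or.inr (Or.inl ⟨x, h, rfl, rfl⟩))⟩

/-- the branch sets -/
def mu (r s : ℕ) : Fin 2 ⊕ (Fin r × Fin r) → Set (Fin 2 ⊕ (Fin s × Fin s))
  | Sum.inl p => {Sum.inl p}
  | Sum.inr a => {v | ∃ x : Fin s × Fin s, v = Sum.inr x ∧ min x.1.val (r - 1) = a.1.val ∧
      min x.2.val (r - 1) = a.2.val}

theorem mu_conn {r s : ℕ} (hrs : r ≤ s) (a : Fin 2 ⊕ (Fin r × Fin r)) :
    ((TX s).induce (mu r s a)).Connected := by
  rcases a with p | a
  · have : Nonempty (mu r s (Sum.inl p)) := ⟨⟨Sum.inl p, rfl⟩⟩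
    refine ⟨fun x y => ?_⟩
    have hx : x.1 = Sum.inl p := x.2
    have hy : y.1 = Sum.inl p := y.2
    rw [Subtype.ext (hx.trans hy.symm)]
  · have ha1 := a.1.2
    have ha2 := a.2.2
    have hb : (Sum.inr ((⟨a.1.val, by omega⟩, ⟨a.2.val, by omega⟩) : Fin s × Fin s) :
        Fin 2 ⊕ (Fin s × Fin s)) ∈ mu r s (Sum.inr a) := by
      refine ⟨_, rfl, ?_, ?_⟩
      · simp only
        omega
      · simp only
        omega
    have key : ∀ n : ℕ, ∀ x : Fin s × Fin s, x.1.val + x.2.val = n →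
        ∀ hx : (Sum.inr x : Fin 2 ⊕ (Fin s × Fin s)) ∈ mu r s (Sum.inr a),
        ((TX s).induce (mu r s (Sum.inr a))).Reachable ⟨_, hb⟩ ⟨_, hx⟩ := by
      intro n
      induction n using Nat.strong_induction_on with
      | _ n ih =>
        intro x hn hx
        obtain ⟨y, hy, h1, h2⟩ := id hx
        obtain rfl : x = y := Sum.inr.inj hy
        by_cases c1 : x.1.val = a.1.val
        · by_cases c2 : x.2.val = a.2.val
          · have e : (⟨_, hb⟩ : mu r s (Sum.inr a)) = ⟨Sum.inr x, hx⟩ :=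
              Subtype.ext (congrArg Sum.inr (Prod.ext (Fin.ext c1.symm) (Fin.ext c2.symm)))
            rw [e]
          · have hx2 := x.2.2
            have hz : (Sum.inr ((x.1, ⟨x.2.val - 1, by omega⟩) : Fin s × Fin s) :
                Fin 2 ⊕ (Fin s × Fin s)) ∈ mu r s (Sum.inr a) := by
              refine ⟨_, rfl, h1, ?_⟩
              simp only
              omega
            refine (ih (x.1.val + (x.2.val - 1)) (by omega) _ rfl hz).trans ?_
            apply Adj.reachable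
            refine tx_g ((grid_adj _ _).2 (Or.inr ⟨rfl, Or.inl ?_⟩))
            simp only
            omega
        · have hx1 := x.1.2
          have hz : (Sum.inr ((⟨x.1.val - 1, by omega⟩, x.2) : Fin s × Fin s) :
              Fin 2 ⊕ (Fin s × Fin s)) ∈ mu r s (Sum.inr a) := by
            refine ⟨_, rfl, ?_, h2⟩
            simp only
            omega
          refine (ih ((x.1.val - 1) + x.2.val) (by omega) _ rfl hz).trans ?_
          apply Adj.reachable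
          refine tx_g ((grid_adj _ _).2 (Or.inl ⟨rfl, Or.inl ?_⟩))
          simp only
          omega
    have : Nonempty (mu r s (Sum.inr a)) := ⟨⟨_, hb⟩⟩
    refine ⟨fun u v => ?_⟩
    obtain ⟨u, hu⟩ := u
    obtain ⟨v, hv⟩ := v
    obtain ⟨x, rfl, -, -⟩ := id hu
    obtain ⟨y, rfl, -, -⟩ := id hv
    exact (key _ x rfl hu).symm.trans (key _ y rfl hv)

theorem mu_disj {r s : ℕ} (a b : Fin 2 ⊕ (Fin r × Fin r)) (hab : a ≠ b) :
    Disjoint (mu r s a) (mu r s b) := by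
  rw [Set.disjoint_left]
  intro v hva hvb
  rcases a with p | a <;> rcases b with q | b
  · have h1 : v = Sum.inl p := hva
    have h2 : v = Sum.inl q := hvb
    exact hab (congrArg Sum.inl (Sum.inl.inj (h1.symm.trans h2)))
  · have h1 : v = Sum.inl p := hva
    obtain ⟨x, h2, -, -⟩ := hvb
    exact absurd (h1.symm.trans h2) Sum.inl_ne_inr
  · have h1 : v = Sum.inl q := hvb
    obtain ⟨x, h2, -, -⟩ := hva
    exact absurd (h1.symm.trans h2) Sum.inl_ne_inr
  · obtain ⟨x, h1, h2, h3⟩ := hva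
    obtain ⟨y, h4, h5, h6⟩ := hvb
    obtain rfl : x = y := Sum.inr.inj (h1.symm.trans h4)
    exact hab (congrArg Sum.inr (Prod.ext (Fin.ext (h2.symm.trans h5))
      (Fin.ext (h3.symm.trans h6))))

theorem mu_edge {r s : ℕ} (hrs : r ≤ s) {a b : Fin 2 ⊕ (Fin r × Fin r)}
    (h : (∃ x : Fin r × Fin r, (x.1.val = 0 ∨ x.1.val + 1 = r) ∧ a = Sum.inl 0 ∧ b = Sum.inr x) ∨
    (∃ x : Fin r × Fin r, (x.2.val = 0 ∨ x.2.val + 1 = r) ∧ a = Sum.inl 1 ∧ b = Sum.inr x) ∨
    ∃ x y : Fin r × Fin r, (grid r).Adj x y ∧ a = Sum.inr x ∧ b = Sum.inr y) :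
    ∃ x ∈ mu r s a, ∃ y ∈ mu r s b, (TX s).Adj x y := by
  rcases h with ⟨x, hx, rfl, rfl⟩ | ⟨x, hx, rfl, rfl⟩ | ⟨x, y, hxy, rfl, rfl⟩
  · have h1 := x.1.2
    have h2 := x.2.2
    refine ⟨Sum.inl 0, rfl, ?_⟩
    rcases hx with hx | hx
    · refine ⟨Sum.inr (⟨0, by omega⟩, ⟨x.2.val, by omega⟩), ⟨_, rfl, ?_, ?_⟩, tx_0 (Or.inl rfl)⟩
      · simp only
        omega
      · simp only
        omega
    · refine ⟨Sum.inr (⟨s - 1, by omega⟩, ⟨x.2.val, by omega⟩), ⟨_, rfl, ?_, ?_⟩,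
        tx_0 (Or.inr ?_)⟩
      · simp only
        omega
      · simp only
        omega
      · simp only
        omega
  · have h1 := x.1.2
    have h2 := x.2.2
    refine ⟨Sum.inl 1, rfl, ?_⟩
    rcases hx with hx | hx
    · refine ⟨Sum.inr (⟨x.1.val, by omega⟩, ⟨0, by omega⟩), ⟨_, rfl, ?_, ?_⟩, tx_1 (Or.inl rfl)⟩
      · simp only
        omega
      · simp only
        omega
    · refine ⟨Sum.inr (⟨x.1.val, by omega⟩, ⟨s - 1, by omega⟩), ⟨_, rfl, ?_, ?_⟩,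
        tx_1 (Or.inr ?_)⟩
      · simp only
        omega
      · simp only
        omega
      · simp only
        omega
  · have h1 := x.1.2
    have h2 := x.2.2
    have h3 := y.1.2
    have h4 := y.2.2
    refine ⟨Sum.inr (⟨x.1.val, by omega⟩, ⟨x.2.val, by omega⟩), ⟨_, rfl, ?_, ?_⟩,
      Sum.inr (⟨y.1.val, by omega⟩, ⟨y.2.val, by omega⟩), ⟨_, rfl, ?_, ?_⟩,
      tx_g ((grid_adj _ _).2 ?_)⟩
    · simp only
      omega
    · simp only
      omega
    · simp only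
      omega
    · simp only
      omega
    · rcases (grid_adj _ _).1 hxy with ⟨e, f⟩ | ⟨e, f⟩
      · have e' : x.2.val = y.2.val := congrArg Fin.val e
        exact Or.inl ⟨Fin.ext e', f⟩
      · have e' : x.1.val = y.1.val := congrArg Fin.val e
        exact Or.inr ⟨Fin.ext e', f⟩

/-- **[MONO]** -/
theorem mono {r s : ℕ} (hrs : r ≤ s) : IsMinor (TX r) (TX s) := by
  refine ⟨mu r s, mu_conn hrs, mu_disj, fun a b hab => ?_⟩
  rcases hab with ⟨-, h | h⟩
  · exact mu_edge hrs h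
  · obtain ⟨x, hx, y, hy, hxy⟩ := mu_edge hrs h
    exact ⟨y, hy, x, hx, hxy.symm⟩

end Vale.Agent.P235.XC.H237
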